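import Vale.Agent.P209.Bdl.B1
import Mathlib.MeasureTheory.Covering.Vitali

set_option linter.all false

namespace Vale.Agent.P209.J

open Vale.Agent.P209 Vale.Agent.P209.Strong MeasureTheory

open scoped ContDiff

/-! J1. Packings in steps, translations. -/

/-- A packing of `S` by balls `s`, and for each of them a packing by the balls `i` with
`b i = l`. -/
theorem packs_fibers {n : ℕ} {ι κ : Type} {S : Set (Fin n → ℂ)} {s : κ → ℝ} {r : ι → ℝ}
    (b : ι → κ) (h : Packs S s)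
    (hb : ∀ l, Packs (closedBall n (s l)) (fun i : {i // b i = l} => r i)) : Packs S r := by
  obtain ⟨F, hF, hFR, hFd⟩ := h
  choose g hg hgR hgd using hb
  have hsub : ∀ l (i : {i // b i = l}), g l i '' closedBall n (r i) ⊆ closedBall n (s l) :=
    fun l i => hgR l i
  have key : ∀ l i (hi : b i = l) z, F (b i) (g (b i) ⟨i, rfl⟩ z) = F l (g l ⟨i, hi⟩ z) := by
    rintro l i rfl z
    rfl
  have himg : ∀ i, (fun z => F (b i) (g (b i) ⟨i, rfl⟩ z)) '' closedBall n (r i) ⊆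
      F (b i) '' closedBall n (s (b i)) := by
    rintro i _ ⟨z, hz, rfl⟩
    exact ⟨_, hsub (b i) ⟨i, rfl⟩ ⟨z, hz, rfl⟩, rfl⟩
  refine ⟨fun i z => F (b i) (g (b i) ⟨i, rfl⟩ z), ?_, ?_, ?_⟩
  · intro i
    exact e1b_comp (hF (b i)) (hg (b i) ⟨i, rfl⟩) (hsub (b i) ⟨i, rfl⟩)
  · intro i
    exact (himg i).trans (hFR (b i))
  · intro i j hij
    by_cases hl : b i = b j
    · rw [Set.disjoint_left]
      rintro _ ⟨z, hz, rfl⟩ ⟨w, hw, hzw⟩
      obtain ⟨U, hUo, hU, hFU, hFe, hFs⟩ := hF (b j)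
      have hFi : Set.InjOn (F (b j)) U := by
        intro a ha b hb hab
        have h1 := hFe.injective (a₁ := ⟨a, ha⟩) (a₂ := ⟨b, hb⟩) hab
        exact congrArg Subtype.val h1
      simp only [key (b j) i hl] at hzw
      have h1 := hFi (hU (hsub (b j) ⟨j, rfl⟩ ⟨w, hw, rfl⟩))
        (hU (hsub (b j) ⟨i, hl⟩ ⟨z, hz, rfl⟩)) hzw
      have h2 : (⟨i, hl⟩ : {i // b i = b j}) ≠ ⟨j, rfl⟩ := fun h => hij (congrArg Subtype.val h)
      exact Set.disjoint_left.1 (hgd (b j) h2) ⟨z, hz, rfl⟩ ⟨w, hw, h1⟩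
    · exact (hFd hl).mono (himg i) (himg j)

theorem packs_mono {n : ℕ} {ι : Type} {S S' : Set (Fin n → ℂ)} {r : ι → ℝ} (h : Packs S r)
    (hS : S ⊆ S') : Packs S' r := by
  obtain ⟨f, h1, h2, h3⟩ := h
  exact ⟨f, h1, fun i => (h2 i).trans hS, h3⟩

/-- Translations are symplectic. -/
theorem translate_embedding {n : ℕ} (r : ℝ) (x : Fin n → ℂ) :
    IsSymplecticEmbedding r (fun z => z + x) := by
  have hcd : ContDiff ℝ ∞ (fun z : Fin n → ℂ => z + x) := contDiff_id.add contDiff_const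
  have hsy : ∀ z ∈ (Set.univ : Set (Fin n → ℂ)), ∀ v w : Fin n → ℂ,
      omega (fderiv ℝ (fun z : Fin n → ℂ => z + x) z v)
        (fderiv ℝ (fun z : Fin n → ℂ => z + x) z w) = omega v w := by
    intro z _ v w
    have h1 : fderiv ℝ (fun z : Fin n → ℂ => z + x) z = ContinuousLinearMap.id ℝ _ := by
      rw [fderiv_add_const]
      exact fderiv_id'
    rw [h1]
    rfl
  refine ⟨Set.univ, isOpen_univ, Set.subset_univ _, hcd.contDiffOn, ?_, hsy⟩
  refine isOpenEmbedding_of_sympl isOpen_univ hcd.contDiffOn ?_ hsy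
  intro a _ b _ hab
  exact add_right_cancel hab

end Vale.Agent.P209.J
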