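import Vale.Agent.P209.H113.J1

set_option linter.all false

namespace Vale.Agent.P209.J

open Vale.Agent.P209 Vale.Agent.P209.Strong Vale.Agent.P209.V MeasureTheory

open scoped ContDiff ENNReal NNReal

/-! J2. Vitali: an open set contains finitely many disjoint closed balls of nearly full volume. -/

/-- the closed ball of capacity `ρ` with centre `x` -/
def cb {n : ℕ} (a : (Fin n → ℂ) × ℝ) : Set (Fin n → ℂ) := (fun z => z + a.1) '' Vale.Agent.P209.closedBall n a.2

theorem cb_eq {n : ℕ} (a : (Fin n → ℂ) × ℝ) :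
    cb a = (fun z => z - a.1) ⁻¹' Vale.Agent.P209.closedBall n a.2 := by
  ext z
  constructor
  · rintro ⟨w, hw, rfl⟩
    simpa using hw
  · intro hz
    exact ⟨z - a.1, hz, by simp⟩

theorem cb_isCompact {n : ℕ} (a : (Fin n → ℂ) × ℝ) : IsCompact (cb a) :=
  (n1_isCompact n a.2).image (by fun_prop)

theorem cb_volume {n : ℕ} (a : (Fin n → ℂ) × ℝ) :
    volume (cb a) = volume (Vale.Agent.P209.closedBall n a.2) :=
  n1_image (translate_embedding a.2 a.1)

theorem cb_sub {n : ℕ} (x : Fin n → ℂ) {ρ : ℝ} (hρ : 0 ≤ ρ) :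
    cb (x, ρ) ⊆ Metric.closedBall x (Real.sqrt (ρ / Real.pi)) := by
  rintro _ ⟨z, hz, rfl⟩
  rw [Metric.mem_closedBall, dist_eq_norm]
  simp only [add_sub_cancel_right]
  rw [pi_norm_le_iff_of_nonneg (Real.sqrt_nonneg _)]
  intro j
  have h1 : Real.pi * ∑ j, ‖z j‖ ^ 2 ≤ ρ := hz
  have h2 : ‖z j‖ ^ 2 ≤ ∑ j, ‖z j‖ ^ 2 :=
    Finset.single_le_sum (fun i _ => sq_nonneg ‖z i‖) (Finset.mem_univ j)
  apply Real.le_sqrt_of_sq_le
  rw [le_div_iff₀ Real.pi_pos]
  nlinarith [Real.pi_pos]

theorem cb_interior {n : ℕ} (x : Fin n → ℂ) {ρ : ℝ} (hρ : 0 < ρ) :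
    (interior (cb (x, ρ))).Nonempty := by
  refine ⟨x, ?_⟩
  rw [mem_interior]
  refine ⟨(fun z => z - x) ⁻¹' openBall n ρ, ?_, ?_, ?_⟩
  · rw [cb_eq]
    intro z hz
    exact e1b_open_sub_closed hz
  · have : IsOpen (openBall n ρ) := isOpen_lt (n1_continuous n) continuous_const
    exact this.preimage (by fun_prop)
  · simp [openBall, hρ]

theorem exists_balls {n : ℕ} {U : Set (Fin n → ℂ)} (hU : IsOpen U) {V : ℝ≥0∞}
    (hV : V < volume U) : ∃ (κ : Type) (_ : Fintype κ) (s : κ → ℝ), (∀ l, 0 < s l) ∧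
      Packs U s ∧ V < ∑ l, volume (Vale.Agent.P209.closedBall n (s l)) := by
  classical
  obtain ⟨C1, hC0, hCt, hC⟩ := volume_closedBall n
  set t : Set ((Fin n → ℂ) × ℝ) := {a | 0 < a.2 ∧ cb a ⊆ U} with ht
  set M : ℝ≥0∞ := volume (Metric.ball (0 : Fin n → ℂ) 1) with hM
  have hMt : M ≠ ⊤ := measure_ball_lt_top.ne
  have hfr : Module.finrank ℝ (Fin n → ℂ) = 2 * n := by
    rw [Module.finrank_pi_fintype]
    simp [Complex.finrank_real_complex, mul_comm]
  set Cc : ℝ≥0∞ := 9 ^ n * M / C1 with hCc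
  have hCct : Cc ≠ ⊤ := ENNReal.div_ne_top (ENNReal.mul_ne_top (by finiteness) hMt) hC0
  obtain ⟨u, hut, huc, hud, hu0⟩ := Vitali.exists_disjoint_covering_ae
    (volume : Measure (Fin n → ℂ)) U t Cc.toNNReal (fun a => Real.sqrt (a.2 / Real.pi))
    (fun a => a.1) cb
    (fun a ha => cb_sub a.1 ha.1.le)
    (by
      intro a ha
      have hρ : 0 < a.2 := ha.1
      rw [Measure.addHaar_closedBall _ _ (by positivity), cb_volume, hC _ hρ, hfr,
        ENNReal.coe_toNNReal hCct, hCc]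
      have h1 : (3 * Real.sqrt (a.2 / Real.pi)) ^ (2 * n) = 9 ^ n * (a.2 / Real.pi) ^ n := by
        rw [pow_mul, mul_pow, Real.sq_sqrt (by positivity), mul_pow]
        norm_num
      have h2 : 9 ^ n * (a.2 / Real.pi) ^ n ≤ 9 ^ n * a.2 ^ n := by
        have h3 : a.2 / Real.pi ≤ a.2 := div_le_self hρ.le (by linarith [Real.two_le_pi])
        have h4 := pow_le_pow_left₀ (by positivity) h3 n
        nlinarith [pow_pos (show (0 : ℝ) < 9 by norm_num) n]
      rw [h1]
      calc ENNReal.ofReal (9 ^ n * (a.2 / Real.pi) ^ n) * M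
          ≤ ENNReal.ofReal (9 ^ n * a.2 ^ n) * M := by gcongr
        _ = 9 ^ n * ENNReal.ofReal (a.2 ^ n) * M := by
            rw [ENNReal.ofReal_mul (by positivity), ENNReal.ofReal_pow (by norm_num)]
            norm_num
        _ = 9 ^ n * M / C1 * (ENNReal.ofReal (a.2 ^ n) * C1) := by
            rw [mul_comm (ENNReal.ofReal (a.2 ^ n)) C1, ← mul_assoc,
              ENNReal.div_mul_cancel hC0 hCt]
            ring)
    (fun a ha => cb_interior a.1 ha.1)
    (fun a ha => (cb_isCompact a).isClosed)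
    (by
      intro x hx ε hε
      obtain ⟨δ, hδ, hδU⟩ := Metric.isOpen_iff.1 hU x hx
      set m : ℝ := min ε (δ / 2) with hm
      have hm0 : 0 < m := lt_min hε (by linarith)
      refine ⟨(x, Real.pi * m ^ 2), ⟨by positivity, ?_⟩, ?_, rfl⟩
      · refine (cb_sub x (by positivity)).trans ?_
        rw [mul_div_cancel_left₀ _ Real.pi_ne_zero, Real.sqrt_sq hm0.le]
        refine (Metric.closedBall_subset_ball ?_).trans hδU
        have : m ≤ δ / 2 := min_le_right _ _
        linarith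
      · show Real.sqrt (Real.pi * m ^ 2 / Real.pi) ≤ ε
        rw [mul_div_cancel_left₀ _ Real.pi_ne_zero, Real.sqrt_sq hm0.le]
        exact min_le_left _ _)
  haveI : Countable u := huc.to_subtype
  have h1 : volume U ≤ ∑' a : u, volume (cb (a : (Fin n → ℂ) × ℝ)) := by
    calc volume U ≤ volume (⋃ a ∈ u, cb a) := by
          have h2 : volume U ≤ volume (U \ ⋃ a ∈ u, cb a) + volume (⋃ a ∈ u, cb a) := by
            refine (measure_mono ?_).trans (measure_union_le _ _)
            exact fun z hz => by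
              by_cases h : z ∈ ⋃ a ∈ u, cb a
              · exact Or.inr h
              · exact Or.inl ⟨hz, h⟩
          rwa [hu0, zero_add] at h2
      _ ≤ _ := measure_biUnion_le volume huc _
  have h2 := hV.trans_le h1
  rw [ENNReal.tsum_eq_iSup_sum, lt_iSup_iff] at h2
  obtain ⟨F, hF⟩ := h2
  refine ⟨Fin F.card, inferInstance, fun l => ((F.equivFin.symm l : u) : (Fin n → ℂ) × ℝ).2,
    ?_, ?_, ?_⟩
  · intro l
    exact (hut (F.equivFin.symm l : u).2).1
  · refine ⟨fun l z => z + ((F.equivFin.symm l : u) : (Fin n → ℂ) × ℝ).1,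
      fun l => translate_embedding _ _, ?_, ?_⟩
    · intro l
      exact (hut (F.equivFin.symm l : u).2).2
    · intro i j hij
      have h3 : ((F.equivFin.symm i : u) : (Fin n → ℂ) × ℝ) ≠ (F.equivFin.symm j : u) := by
        intro h
        exact hij (F.equivFin.symm.injective (Subtype.ext (Subtype.ext h)))
      exact hud (F.equivFin.symm i : u).2 (F.equivFin.symm j : u).2 h3
  · refine hF.trans_le (le_of_eq ?_)
    rw [← Finset.sum_coe_sort F, ← Equiv.sum_comp F.equivFin.symm]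
    exact Finset.sum_congr rfl fun l _ => cb_volume _

end Vale.Agent.P209.J
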