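import Vale.Agent.P209.H412.Inf4
import Vale.Agent.P209.H113.J2

set_option linter.all false

namespace Vale.Agent.P209.J

open Vale.Agent.P209 Vale.Agent.P209.Strong Vale.Agent.P209.V MeasureTheory

/-! J3. Distribution of small balls over finitely many containers. -/

/-- The volume criterion for families over any index type. -/
theorem packs_D_type {n : ℕ} (hn : 1 ≤ n) {ι : Type} {r : ι → ℝ} (hr : ∀ i, 0 < r i)
    (hs : Summable fun i => r i ^ n) {ρ : ℝ} (hρ : 0 < ρ)
    (h : 2 ^ (n - 1) * ∑' i, r i ^ n < ρ ^ n) : Packs (openBall n ρ) r := by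
  classical
  haveI : Countable ι := by
    have h1 := hs.countable_support
    have h2 : Function.support (fun i => r i ^ n) = Set.univ := by
      ext i
      simp [(hr i).ne']
    rw [h2] at h1
    exact Set.countable_univ_iff.1 h1
  rcases finite_or_infinite ι with hf | hf
  · haveI := Fintype.ofFinite ι
    have h1 : Packs (openBall n ρ) (fun i : Fin (Fintype.card ι) =>
        r ((Fintype.equivFin ι).symm i)) := by
      refine Inf.critD hn _ ρ _ hρ (fun i => hr _) ?_
      rw [Equiv.sum_comp (Fintype.equivFin ι).symm (fun i => r i ^ n)]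
      rwa [tsum_fintype] at h
    have h2 := Packs.comp_inj h1 (Fintype.equivFin ι) (Fintype.equivFin ι).injective
    simpa using h2
  · obtain ⟨d⟩ := nonempty_denumerable_iff.2 ⟨inferInstance, hf⟩
    have h1 : Packs (openBall n ρ) (fun i : ℕ => r ((Denumerable.eqv ι).symm i)) := by
      refine Inf.packs_D hn (Inf.critD hn) (fun i => hr _) ?_ hρ ?_
      · exact ((Denumerable.eqv ι).symm.summable_iff (f := fun i => r i ^ n)).2 hs
      · rw [Equiv.tsum_eq (Denumerable.eqv ι).symm (fun i => r i ^ n)]
        exact h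
    have h2 := Packs.comp_inj h1 (Denumerable.eqv ι) (Denumerable.eqv ι).injective
    simpa using h2

/-- Greedy distribution of small items over bins. -/
theorem distribute {κ ι : Type} [Fintype κ] [Nonempty κ] [DecidableEq κ] [DecidableEq ι]
    (c : κ → ℝ) (w : ι → ℝ) (hc : ∀ l, 0 ≤ c l) {δ : ℝ} (hw0 : ∀ i, 0 ≤ w i)
    (hw : ∀ i, w i ≤ δ) (F : Finset ι)
    (h : ∑ i ∈ F, w i + Fintype.card κ * δ ≤ ∑ l, c l) :
    ∃ b : ι → κ, ∀ l, ∑ i ∈ F with b i = l, w i ≤ c l := by
  induction F using Finset.induction_on with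
  | empty =>
    obtain ⟨l0⟩ := ‹Nonempty κ›
    exact ⟨fun _ => l0, fun l => by simpa using hc l⟩
  | @insert a F ha ih =>
    rw [Finset.sum_insert ha] at h
    obtain ⟨b, hb⟩ := ih (by linarith [hw0 a])
    have h1 : ∑ l, ∑ i ∈ F with b i = l, w i = ∑ i ∈ F, w i :=
      Finset.sum_fiberwise F b w
    obtain ⟨l, -, hl⟩ : ∃ l ∈ Finset.univ, ∑ i ∈ F with b i = l, w i + δ ≤ c l := by
      by_contra hcon
      push Not at hcon
      have h2 : ∑ l, c l < ∑ l : κ, (∑ i ∈ F with b i = l, w i + δ) :=
        Finset.sum_lt_sum_of_nonempty Finset.univ_nonempty fun l hl => hcon l hl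
      rw [Finset.sum_add_distrib, h1, Finset.sum_const, Finset.card_univ, nsmul_eq_mul] at h2
      linarith [hw0 a]
    refine ⟨Function.update b a l, fun l' => ?_⟩
    have h3 : ∑ i ∈ F with Function.update b a l i = l', w i = ∑ i ∈ F with b i = l', w i := by
      refine Finset.sum_congr (Finset.filter_congr fun i hi => ?_) fun _ _ => rfl
      have hia : i ≠ a := by
        rintro rfl
        exact ha hi
      rw [Function.update_of_ne hia]
    rw [Finset.filter_insert, Function.update_self]
    by_cases hll : l = l'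
    · subst hll
      rw [if_pos rfl, Finset.sum_insert (fun h => ha (Finset.mem_filter.1 h).1), h3]
      linarith [hw a]
    · rw [if_neg hll, h3]
      exact hb l'

end Vale.Agent.P209.J
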