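import Vale.Agent.P209.H113.J3

set_option linter.all false

namespace Vale.Agent.P209.J

open Vale.Agent.P209 Vale.Agent.P209.Strong Vale.Agent.P209.V MeasureTheory

/-! J4. Small balls in a set which contains a packing by finitely many balls. -/

theorem exists_theta {T W : ℝ} (h0 : 0 < T) (h : W < T) :
    ∃ θ : ℝ, 0 < θ ∧ θ < 1 ∧ W < θ * T := by
  refine ⟨(1 + max W 0 / T) / 2, by positivity, ?_, ?_⟩
  · have h1 : max W 0 / T < 1 := (div_lt_one h0).2 (max_lt h h0)
    linarith
  · have h1 : (1 + max W 0 / T) / 2 * T = (T + max W 0) / 2 := by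
      field_simp
    rw [h1]
    have h2 : W ≤ max W 0 := le_max_left _ _
    linarith

theorem fill_finite (n : ℕ) (hn : 2 ≤ n) {κ : Type} [Fintype κ] [Nonempty κ]
    {U : Set (Fin n → ℂ)} {s : κ → ℝ} (hs : ∀ l, 0 < s l) (hU : Packs U s) {W : ℝ}
    (hW : W < ∑ l, s l ^ n) : ∃ ε : ℝ, 0 < ε ∧ ∀ (ι : Type) [Fintype ι] (r : ι → ℝ),
      (∀ i, 0 < r i ∧ r i ≤ ε) → ∑ i, r i ^ n ≤ W → Packs U r := by
  classical
  obtain ⟨εA, hεA, hA⟩ := strong_stability n hn
  have hT : 0 < ∑ l, s l ^ n := Finset.sum_pos (fun l _ => pow_pos (hs l) n) Finset.univ_nonempty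
  obtain ⟨θ, hθ0, hθ1, hθ⟩ := exists_theta hT hW
  obtain ⟨l0, -, hl0⟩ := Finset.exists_min_image (Finset.univ : Finset κ) s Finset.univ_nonempty
  obtain ⟨ε, hε, hεb, hεn⟩ := Inf.exists_small (n := n) (by omega)
    (g := θ * ∑ l, s l ^ n - W) (C := Fintype.card κ) (sub_pos.2 hθ)
    (by exact_mod_cast Fintype.card_pos) (b := εA * s l0) (mul_pos hεA (hs l0))
  refine ⟨ε, hε, fun ι _ r hr hsum => ?_⟩
  obtain ⟨b, hb⟩ := distribute (fun l => θ * s l ^ n) (fun i => r i ^ n)
    (fun l => mul_nonneg hθ0.le (pow_pos (hs l) n).le) (δ := ε ^ n)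
    (fun i => (pow_pos (hr i).1 n).le)
    (fun i => pow_le_pow_left₀ (hr i).1.le (hr i).2 n) Finset.univ (by
      rw [← Finset.mul_sum]
      linarith)
  refine packs_fibers b hU fun l => packs_mono ?_ e1b_open_sub_closed
  refine hA {i // b i = l} (s l) (fun i => r i) (hs l) (fun i => ⟨(hr i).1, ?_⟩) ?_
  · have h1 := mul_le_mul_of_nonneg_left (hl0 l (Finset.mem_univ l)) hεA.le
    exact ((hr i).2.trans hεb.le).trans h1
  · have h1 : ∑ i : {i // b i = l}, r i ^ n = ∑ i with b i = l, r i ^ n :=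
      (Finset.sum_subtype _ (by simp) (fun i => r i ^ n)).symm
    rw [h1]
    have h2 := hb l
    have h3 := pow_pos (hs l) n
    nlinarith

theorem fill_type (n : ℕ) (hn : 2 ≤ n) {κ : Type} [Fintype κ] [Nonempty κ]
    {U : Set (Fin n → ℂ)} {s : κ → ℝ} (hs : ∀ l, 0 < s l) (hU : Packs U s) {W : ℝ}
    (hW : W < ∑ l, s l ^ n) : ∃ ε : ℝ, 0 < ε ∧ ∀ (ι : Type) (r : ι → ℝ),
      (∀ i, 0 < r i ∧ r i ≤ ε) → Summable (fun i => r i ^ n) → ∑' i, r i ^ n ≤ W →
      Packs U r := by
  classical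
  obtain ⟨ε, hε, h⟩ := fill_finite n hn hs hU (W := (W + ∑ l, s l ^ n) / 2) (by linarith)
  refine ⟨ε, hε, fun ι r hr hsum hle => ?_⟩
  obtain ⟨ρ, hρ, hρb, hρn⟩ := Inf.exists_small (n := n) (by omega)
    (g := (W + ∑ l, s l ^ n) / 2 - W) (C := 1) (by linarith) one_pos hε
  have h1 := tendsto_tsum_compl_atTop_zero (fun i => r i ^ n)
  have h2 : (0 : ℝ) < ρ ^ n / 2 ^ (n - 1) := by positivity
  obtain ⟨F, hF⟩ := ((h1.eventually_lt_const h2).exists)
  have hFt : 2 ^ (n - 1) * ∑' i : {x // x ∉ F}, r i ^ n < ρ ^ n := by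
    rw [lt_div_iff₀ (by positivity)] at hF
    linarith
  let b : ι → Option F := fun i => if h : i ∈ F then some ⟨i, h⟩ else none
  have hbF : ∀ i (h : i ∈ F), b i = some ⟨i, h⟩ := fun i h => dif_pos h
  have hbn : ∀ i, i ∉ F → b i = none := fun i h => dif_neg h
  have h3 : Packs U (fun o : Option F => o.elim ρ (fun i => r i)) := by
    refine h (Option F) _ ?_ ?_
    · rintro (_ | i)
      · exact ⟨hρ, hρb.le⟩
      · exact hr i
    · rw [Fintype.sum_option]
      simp only [Option.elim_none, Option.elim_some]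
      have h4 : ∑ i : F, r i ^ n ≤ ∑' i, r i ^ n := by
        rw [Finset.sum_coe_sort F (fun i => r i ^ n)]
        exact hsum.sum_le_tsum _ fun i _ => (pow_pos (hr i).1 n).le
      linarith
  refine packs_fibers b h3 ?_
  rintro (_ | i)
  · have hsub : Summable (fun i : {x // x ∉ F} => r i ^ n) := hsum.subtype _
    have h4 : Packs (openBall n ρ) (fun i : {x // x ∉ F} => r i) :=
      packs_D_type (n := n) (ι := {x // x ∉ F}) (r := fun i => r i) (by omega)
        (fun i => (hr i).1) hsub hρ hFt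
    have h5 := Packs.comp_inj h4 (fun i : {i // b i = none} => (⟨i.1, by
      intro hi
      have := i.2
      rw [hbF _ hi] at this
      exact absurd this (by simp)⟩ : {x // x ∉ F})) (by
        intro i j hij
        have hij' : (i : ι) = j := congrArg (fun x : {x // x ∉ F} => (x : ι)) hij
        exact Subtype.ext hij')
    exact packs_mono h5 e1b_open_sub_closed
  · have hi : ∀ j : {j // b j = some i}, (j : ι) = i := by
      intro j
      have h4 := j.2
      by_cases hj : (j : ι) ∈ F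
      · rw [hbF _ hj] at h4
        exact congrArg Subtype.val (Option.some_injective _ h4)
      · rw [hbn _ hj] at h4
        exact absurd h4 (by simp)
    refine ⟨fun _ z => z, fun j => Inf.isSympl_id _, fun j => ?_, fun j k hjk => ?_⟩
    · rw [Set.image_id']
      show closedBall n (r j) ⊆ closedBall n (r i)
      rw [hi j]
    · exact absurd (Subtype.ext ((hi j).trans (hi k).symm)) hjk

end Vale.Agent.P209.J
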