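import Vale.Agent.P209.H113.J4

set_option linter.all false

namespace Vale.Agent.P209.J

open Vale.Agent.P209 Vale.Agent.P209.Strong Vale.Agent.P209.V MeasureTheory

open scoped ENNReal

/-! J5. Small balls in open sets, and around any packing. -/

/-- **Small balls are never an obstruction**: in any open set. -/
theorem open_stability (n : ℕ) (hn : 2 ≤ n) (U : Set (Fin n → ℂ)) (V : ℝ≥0∞) (hU : IsOpen U)
    (hV : V < volume U) : ∃ ε : ℝ, 0 < ε ∧ ∀ (ι : Type) (r : ι → ℝ),
      (∀ i, 0 < r i ∧ r i ≤ ε) → ∑' i, volume (closedBall n (r i)) ≤ V → Packs U r := by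
  classical
  obtain ⟨C1, hC0, hCt, hC⟩ := volume_closedBall n
  obtain ⟨κ, _, s, hs, hp, hVs⟩ := exists_balls hU hV
  haveI : Nonempty κ := by
    by_contra hcon
    rw [not_nonempty_iff] at hcon
    simp at hVs
  have h1 : ∑ l, volume (closedBall n (s l)) = ENNReal.ofReal (∑ l, s l ^ n) * C1 := by
    rw [ENNReal.ofReal_sum_of_nonneg (fun l _ => (pow_pos (hs l) n).le), Finset.sum_mul]
    exact Finset.sum_congr rfl fun l _ => hC _ (hs l)
  have h2 : V / C1 < ENNReal.ofReal (∑ l, s l ^ n) := by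
    rw [ENNReal.div_lt_iff (Or.inl hC0) (Or.inl hCt)]
    rwa [h1] at hVs
  have h3 : (V / C1).toReal < ∑ l, s l ^ n := by
    have h4 : V / C1 ≠ ⊤ := (h2.trans ENNReal.ofReal_lt_top).ne
    rw [ENNReal.lt_ofReal_iff_toReal_lt h4] at h2
    exact h2
  have hVt : V / C1 ≠ ⊤ := (h2.trans ENNReal.ofReal_lt_top).ne
  obtain ⟨ε, hε, h⟩ := fill_type n hn hs hp h3
  refine ⟨ε, hε, fun ι r hr hle => ?_⟩
  have h5 : ∑' i, ENNReal.ofReal (r i ^ n) ≤ V / C1 := by
    rw [ENNReal.le_div_iff_mul_le (Or.inl hC0) (Or.inl hCt), ← ENNReal.tsum_mul_right]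
    refine le_trans (le_of_eq (tsum_congr fun i => ?_)) hle
    rw [hC _ (hr i).1]
  have h6 : ∑' i, ENNReal.ofReal (r i ^ n) ≠ ⊤ := ne_top_of_le_ne_top hVt h5
  have h7 : ∀ i, (ENNReal.ofReal (r i ^ n)).toReal = r i ^ n := fun i =>
    ENNReal.toReal_ofReal (pow_pos (hr i).1 n).le
  have h8 : Summable (fun i => r i ^ n) := by
    have := ENNReal.summable_toReal h6
    simpa only [h7] using this
  refine h ι r hr h8 ?_
  have h9 : (∑' i, ENNReal.ofReal (r i ^ n)).toReal = ∑' i, r i ^ n := by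
    rw [ENNReal.tsum_toReal_eq (fun i => ENNReal.ofReal_ne_top)]
    exact tsum_congr h7
  rw [← h9]
  exact ENNReal.toReal_mono hVt h5

/-- Small balls around any packing of an open set. -/
theorem around_open (n l : ℕ) (hn : 2 ≤ n) (U : Set (Fin n → ℂ)) (V : ℝ≥0∞) (r : Fin l → ℝ)
    (hU : IsOpen U) (hp : Packs U r)
    (hV : ∑ i, volume (closedBall n (r i)) + V < volume U) :
    ∃ ε : ℝ, 0 < ε ∧ ∀ (ι : Type) (s : ι → ℝ), (∀ i, 0 < s i ∧ s i ≤ ε) →
      ∑' i, volume (closedBall n (s i)) ≤ V → Packs U (Sum.elim r s) := by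
  classical
  obtain ⟨f, hf, hfR, hfd⟩ := hp
  have hcomp : ∀ i, IsCompact (f i '' closedBall n (r i)) := by
    intro i
    obtain ⟨U, hU, hs, hsm, -⟩ := hf i
    exact (n1_isCompact n (r i)).image_of_continuousOn (hsm.continuousOn.mono hs)
  set K : Set (Fin n → ℂ) := ⋃ i, f i '' closedBall n (r i) with hK
  have hKc : IsCompact K := isCompact_iUnion hcomp
  have h1 : volume K ≤ ∑ i, volume (closedBall n (r i)) := by
    refine (measure_iUnion_fintype_le volume _).trans (le_of_eq ?_)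
    exact Finset.sum_congr rfl fun i _ => n1_image (hf i)
  have h1t : ∑ i, volume (closedBall n (r i)) ≠ ⊤ :=
    ENNReal.sum_ne_top.2 fun i _ => (n1_isCompact n (r i)).measure_ne_top
  have h3 : V < volume (U \ K) := by
    by_contra hcon
    push Not at hcon
    have h4 : volume U ≤ volume (U \ K) + volume K := by
      refine (measure_mono ?_).trans (measure_union_le _ _)
      exact fun z hz => by
        by_cases h : z ∈ K
        · exact Or.inr h
        · exact Or.inl ⟨hz, h⟩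
    have h5 : volume U ≤ ∑ i, volume (closedBall n (r i)) + V := by
      refine h4.trans ?_
      rw [add_comm]
      exact add_le_add h1 hcon
    exact absurd hV (not_lt.2 h5)
  obtain ⟨ε, hε, h⟩ := open_stability n hn (U \ K) V (hU.sdiff hKc.isClosed) h3
  refine ⟨ε, hε, fun ι s hs hle => ?_⟩
  obtain ⟨g, hg, hgR, hgd⟩ := h ι s hs hle
  have h4 : Disjoint (U \ K) K := Set.disjoint_sdiff_left
  refine ⟨Sum.elim f g, ?_, ?_, ?_⟩
  · rintro (i | i)
    · exact hf i
    · exact hg i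
  · rintro (i | i)
    · exact hfR i
    · exact (hgR i).trans Set.diff_subset
  · rintro (i | i) (j | j) hij
    · exact hfd fun h => hij (congrArg Sum.inl h)
    · exact (h4.symm).mono (Set.subset_iUnion (fun i => f i '' closedBall n (r i)) i) (hgR j)
    · exact h4.mono (hgR i) (Set.subset_iUnion (fun i => f i '' closedBall n (r i)) j)
    · exact hgd fun h => hij (congrArg Sum.inr h)

/-- Small balls around any packing of the ball. -/
theorem around_any (n l : ℕ) (hn : 2 ≤ n) (R V : ℝ) (r : Fin l → ℝ) (hR : 0 < R)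
    (hr : ∀ i, 0 < r i) (hp : Packs (openBall n R) r) (hV : ∑ i, r i ^ n + V < R ^ n) :
    ∃ ε : ℝ, 0 < ε ∧ ∀ (ι : Type) (s : ι → ℝ), (∀ i, 0 < s i ∧ s i ≤ ε) →
      Summable (fun i => s i ^ n) → ∑' i, s i ^ n ≤ V → Packs (openBall n R) (Sum.elim r s) := by
  obtain ⟨C1, hC0, hCt, hC⟩ := volume_closedBall n
  have hvol := volume_necessary n l (by omega) R r hR hr hp
  have hBo : IsOpen (openBall n R) := isOpen_lt (n1_continuous n) continuous_const
  set W : ℝ := max V 0 with hW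
  have hW0 : 0 ≤ W := le_max_right _ _
  have hWs : ∑ i, r i ^ n + W < R ^ n := by
    rcases max_cases V 0 with ⟨h1, h2⟩ | ⟨h1, h2⟩
    · rw [hW, h1]; exact hV
    · rw [hW, h1, add_zero]; exact hvol
  have hsg : 0 ≤ ∑ i, r i ^ n := Finset.sum_nonneg fun i _ => (pow_pos (hr i) n).le
  obtain ⟨R', hR'1, hR'2, hR'0⟩ : ∃ R' : ℝ, ∑ i, r i ^ n + W < R' ^ n ∧ R' < R ∧ 0 < R' := by
    have h1 : ∀ᶠ x in nhds R, ∑ i, r i ^ n + W < x ^ n :=
      ((continuous_pow n).tendsto R).eventually_const_lt hWs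
    have h2 : ∀ᶠ x in nhds R, (0 : ℝ) < x := eventually_gt_nhds hR
    have h3 : ∀ᶠ x in nhdsWithin R (Set.Iio R),
        (∑ i, r i ^ n + W < x ^ n ∧ 0 < x) ∧ x ∈ Set.Iio R :=
      ((h1.and h2).filter_mono nhdsWithin_le_nhds).and self_mem_nhdsWithin
    obtain ⟨x, ⟨hx1, hx2⟩, hx3⟩ := h3.exists
    exact ⟨x, hx1, hx3, hx2⟩
  have h1 : ∑ i, volume (closedBall n (r i)) = ENNReal.ofReal (∑ i, r i ^ n) * C1 := by
    rw [ENNReal.ofReal_sum_of_nonneg (fun l _ => (pow_pos (hr l) n).le), Finset.sum_mul]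
    exact Finset.sum_congr rfl fun i _ => hC _ (hr i)
  have h2 : ENNReal.ofReal (R' ^ n) * C1 ≤ volume (openBall n R) := by
    rw [← hC _ hR'0]
    refine measure_mono fun z hz => ?_
    have h3 : Real.pi * ∑ j, ‖z j‖ ^ 2 ≤ R' := hz
    exact lt_of_le_of_lt h3 hR'2
  have h3 : ∑ i, volume (closedBall n (r i)) + ENNReal.ofReal W * C1 <
      volume (openBall n R) := by
    refine lt_of_lt_of_le ?_ h2
    rw [h1, ← add_mul, ← ENNReal.ofReal_add hsg hW0, ENNReal.mul_lt_mul_iff_left hC0 hCt,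
      ENNReal.ofReal_lt_ofReal_iff (by positivity)]
    exact hR'1
  obtain ⟨ε, hε, h⟩ := around_open n l hn (openBall n R) (ENNReal.ofReal W * C1) r hBo hp h3
  refine ⟨ε, hε, fun ι s hs hsum hle => h ι s hs ?_⟩
  have h4 : ∑' i, volume (closedBall n (s i)) = ENNReal.ofReal (∑' i, s i ^ n) * C1 := by
    rw [ENNReal.ofReal_tsum_of_nonneg (fun i => (pow_pos (hs i).1 n).le) hsum,
      ← ENNReal.tsum_mul_right]
    exact tsum_congr fun i => hC _ (hs i).1
  rw [h4]
  gcongr
  exact hle.trans (le_max_left _ _)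

end Vale.Agent.P209.J
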